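import Mathlib
import Vale.Agent.P015.Moat.AlmostAll

/-!
For every step bound, almost every Gaussian prime is enclosed by a moat at logarithmic distance.
-/

namespace Vale.Agent.Results.P015.AlmostAllMoat

open Filter

theorem ratio_tendsto (D : ℝ) : Tendsto (fun X : ℕ =>
      (({z : GaussianInt | Prime z ∧ ‖(z : ℂ)‖ ≤ X ∧
          ∃ w, (Vale.Agent.P015.Moat.stepGraph D).Reachable z w ∧
            Real.log X < ‖(w : ℂ) - (z : ℂ)‖}).ncard : ℝ) /
        (({z : GaussianInt | Prime z ∧ ‖(z : ℂ)‖ ≤ X}).ncard : ℝ)) atTop (nhds 0) := by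
  obtain ⟨c, hc, X1, h1⟩ := Vale.Agent.P015.Moat.few_escape D
  obtain ⟨c', hc', X2, h2⟩ := Vale.Agent.P015.Moat.primes_many
  have hl : Tendsto (fun X : ℕ => Real.log X) atTop atTop :=
    Real.tendsto_log_atTop.comp tendsto_natCast_atTop_atTop
  have hbig : ∀ᶠ X : ℕ in atTop, 16 ≤ Real.log X := hl.eventually (eventually_ge_atTop 16)
  have hgood : ∀ᶠ X : ℕ in atTop, Real.sqrt (Real.log X) / 2 ≤
      Real.log X / Real.log (Real.log X) := by
    filter_upwards [hbig] with X hX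
    set l := Real.log X
    have hll : 0 < Real.log l := Real.log_pos (by linarith)
    have h := Real.log_le_rpow_div (show 0 ≤ l by linarith) (show (0 : ℝ) < 1 / 2 by norm_num)
    rw [← Real.sqrt_eq_rpow] at h
    rw [le_div_iff₀ hll]
    have := Real.mul_self_sqrt (show 0 ≤ l by linarith)
    nlinarith [mul_le_mul_of_nonneg_left h (Real.sqrt_nonneg l)]
  have hbound : ∀ᶠ X : ℕ in atTop,
      (({z : GaussianInt | Prime z ∧ ‖(z : ℂ)‖ ≤ X ∧
          ∃ w, (Vale.Agent.P015.Moat.stepGraph D).Reachable z w ∧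
            Real.log X < ‖(w : ℂ) - (z : ℂ)‖}).ncard : ℝ) /
        (({z : GaussianInt | Prime z ∧ ‖(z : ℂ)‖ ≤ X}).ncard : ℝ) ≤
      (Real.sqrt (Real.log X) / 2) ^ 2 * Real.exp (-(c * (Real.sqrt (Real.log X) / 2))) *
        (4 / c') := by
    filter_upwards [hbig, hgood, eventually_ge_atTop X1, eventually_ge_atTop X2,
      eventually_ge_atTop 1] with X hX hu hX1 hX2 hX3
    have hb := h1 X hX1
    have ha := h2 X hX2
    have hXp : (0 : ℝ) < X := by exact_mod_cast hX3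
    have hpos : 0 < c' * (X : ℝ) ^ 2 / Real.log X :=
      div_pos (mul_pos hc' (by positivity)) (by linarith)
    refine (div_le_div₀ (by positivity) hb hpos ha).trans ?_
    set l := Real.log X with hl
    rw [div_pow, Real.sq_sqrt (show 0 ≤ l by linarith)]
    have he : Real.exp (-c * (l / Real.log l)) ≤ Real.exp (-(c * (Real.sqrt l / 2))) := by
      rw [Real.exp_le_exp, neg_mul, neg_le_neg_iff]
      exact mul_le_mul_of_nonneg_left hu hc.le
    calc (X : ℝ) ^ 2 * Real.exp (-c * (l / Real.log l)) / (c' * (X : ℝ) ^ 2 / l)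
        = Real.exp (-c * (l / Real.log l)) * (l / c') := by field_simp
      _ ≤ Real.exp (-(c * (Real.sqrt l / 2))) * (l / c') :=
          mul_le_mul_of_nonneg_right he (div_nonneg (by linarith) hc'.le)
      _ = _ := by ring
  have hlim : Tendsto (fun X : ℕ => (Real.sqrt (Real.log X) / 2) ^ 2 *
      Real.exp (-(c * (Real.sqrt (Real.log X) / 2))) * (4 / c')) atTop (nhds 0) := by
    have hs : Tendsto (fun X : ℕ => c * (Real.sqrt (Real.log X) / 2)) atTop atTop :=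
      ((Real.tendsto_sqrt_atTop.comp hl).atTop_div_const (by norm_num)).const_mul_atTop hc
    have h := ((Real.tendsto_pow_mul_exp_neg_atTop_nhds_zero 2).comp hs).mul_const
      (4 / c' / c ^ 2)
    rw [zero_mul] at h
    refine h.congr fun X => ?_
    simp only [Function.comp_apply]
    field_simp
  exact squeeze_zero' (Eventually.of_forall fun X => by positivity) hbound hlim

theorem result :
    (∀ D : ℝ, ∃ c : ℝ, 0 < c ∧ ∃ X0 : ℕ, ∀ X : ℕ, X0 ≤ X →
      (({z : GaussianInt | Prime z ∧ ‖(z : ℂ)‖ ≤ X ∧ ∃ w,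
          (SimpleGraph.fromRel fun a b : GaussianInt =>
            Prime a ∧ Prime b ∧ ‖(a : ℂ) - (b : ℂ)‖ ≤ D).Reachable z w ∧
          Real.log X < ‖(w : ℂ) - (z : ℂ)‖}).ncard : ℝ) ≤
        (X : ℝ) ^ 2 * Real.exp (-c * (Real.log X / Real.log (Real.log X)))) ∧
    (∃ c : ℝ, 0 < c ∧ ∃ X0 : ℕ, ∀ X : ℕ, X0 ≤ X →
      c * (X : ℝ) ^ 2 / Real.log X ≤
        (({z : GaussianInt | Prime z ∧ ‖(z : ℂ)‖ ≤ X}).ncard : ℝ)) ∧
    (∀ D : ℝ, Tendsto (fun X : ℕ =>
      (({z : GaussianInt | Prime z ∧ ‖(z : ℂ)‖ ≤ X ∧ ∃ w,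
          (SimpleGraph.fromRel fun a b : GaussianInt =>
            Prime a ∧ Prime b ∧ ‖(a : ℂ) - (b : ℂ)‖ ≤ D).Reachable z w ∧
          Real.log X < ‖(w : ℂ) - (z : ℂ)‖}).ncard : ℝ) /
        (({z : GaussianInt | Prime z ∧ ‖(z : ℂ)‖ ≤ X}).ncard : ℝ)) atTop (nhds 0)) ∧
    (∀ (D b : ℝ) (z : GaussianInt),
      {w | (SimpleGraph.fromRel fun a b : GaussianInt =>
            Prime a ∧ Prime b ∧ ‖(a : ℂ) - (b : ℂ)‖ ≤ D).Reachable z w}.Infinite →
      ∃ w, (SimpleGraph.fromRel fun a b : GaussianInt =>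
            Prime a ∧ Prime b ∧ ‖(a : ℂ) - (b : ℂ)‖ ≤ D).Reachable z w ∧
        b < ‖(w : ℂ) - (z : ℂ)‖) :=
  ⟨Vale.Agent.P015.Moat.few_escape, Vale.Agent.P015.Moat.primes_many, ratio_tendsto,
    fun D b _ h => Vale.Agent.P015.Moat.infinite_escapes D h b⟩

end Vale.Agent.Results.P015.AlmostAllMoat
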