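import Mathlib
import Vale.Agent.P015.Segment

/-!
Gaussian prime-free discs on every long segment, and the resulting moats across every strip.
-/

namespace Vale.Agent.Results.P015.StraightMoats

open Filter ComplexConjugate

theorem crossing_up (g : ℕ → ℝ) (D x : ℝ) (n : ℕ) (h0 : g 0 ≤ x) (hn : x ≤ g n)
    (hD : 0 ≤ D) (hstep : ∀ k < n, |g (k + 1) - g k| ≤ D) :
    ∃ k ≤ n, |g k - x| ≤ D := by
  classical
  have hex : ∃ k, x ≤ g k := ⟨n, hn⟩
  have hk := Nat.find_spec hex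
  have hkn : Nat.find hex ≤ n := Nat.find_min' hex hn
  refine ⟨Nat.find hex, hkn, ?_⟩
  rcases Nat.eq_zero_or_pos (Nat.find hex) with h | h
  · rw [h] at hk ⊢
    rw [abs_le]
    constructor <;> linarith
  · obtain ⟨j, hj⟩ := Nat.exists_eq_succ_of_ne_zero h.ne'
    have hlt : g j < x := not_le.1 (Nat.find_min hex (by omega))
    have hs := hstep j (by omega)
    rw [abs_le] at hs ⊢
    rw [hj, Nat.succ_eq_add_one] at hk ⊢
    constructor <;> linarith

theorem crossing (g : ℕ → ℝ) (D x : ℝ) (n : ℕ) (hx : x ∈ Set.uIcc (g 0) (g n))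
    (hD : 0 ≤ D) (hstep : ∀ k < n, |g (k + 1) - g k| ≤ D) :
    ∃ k ≤ n, |g k - x| ≤ D := by
  rcases Set.mem_uIcc.1 hx with h | h
  · exact crossing_up g D x n h.1 h.2 hD hstep
  · obtain ⟨k, hk, hk'⟩ := crossing_up (fun k => -g k) D (-x) n (by simpa using h.2)
      (by simpa using h.1) hD (fun k hk => by
        rw [show -g (k + 1) - -g k = -(g (k + 1) - g k) by ring, abs_neg]
        exact hstep k hk)
    exact ⟨k, hk, by rwa [show -g k - -x = -(g k - x) by ring, abs_neg] at hk'⟩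

theorem exists_unit (u : ℂ) :
    ∃ v : ℂ, ‖v‖ = 1 ∧ ∀ s : ℝ, ∃ r : ℝ, (s : ℂ) * u = (r : ℂ) * v := by
  by_cases h : u = 0
  · exact ⟨1, by simp, fun s => ⟨0, by simp [h]⟩⟩
  · have h' : ‖u‖ ≠ 0 := by simpa using h
    refine ⟨u / (‖u‖ : ℂ), by simp [div_self h'], fun s => ⟨s * ‖u‖, ?_⟩⟩
    have : (‖u‖ : ℂ) ≠ 0 := by exact_mod_cast h'
    push_cast
    field_simp

/-- The parameter of the orthogonal projection of `z` on the line `a + ℝ v`. -/
noncomputable def proj (a v z : ℂ) : ℝ := ((z - a) * conj v).re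

theorem proj_close (a v z : ℂ) (hv : ‖v‖ = 1) (r : ℝ) :
    ‖z - (a + (proj a v z : ℂ) * v)‖ ≤ ‖z - (a + (r : ℂ) * v)‖ := by
  have hvv : v * conj v = 1 := by
    rw [Complex.mul_conj, Complex.normSq_eq_norm_sq, hv]; simp
  have e : ∀ t : ℝ, ‖z - (a + (t : ℂ) * v)‖ = ‖(z - a) * conj v - (t : ℂ)‖ := by
    intro t
    have h : z - (a + (t : ℂ) * v) = ((z - a) * conj v - (t : ℂ)) * v := by
      linear_combination (-(z - a)) * hvv
    rw [h, norm_mul, hv, mul_one]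
  rw [e, e]
  set q : ℂ := (z - a) * conj v
  have hq : q - (proj a v z : ℂ) = (q.im : ℂ) * Complex.I := by
    apply Complex.ext <;> simp [proj, q]
  rw [hq]
  calc ‖(q.im : ℂ) * Complex.I‖ = |(q - (r : ℂ)).im| := by simp
    _ ≤ _ := Complex.abs_im_le_norm _

theorem proj_step (a v z z' : ℂ) (hv : ‖v‖ = 1) :
    |proj a v z' - proj a v z| ≤ ‖z' - z‖ := by
  have : proj a v z' - proj a v z = ((z' - z) * conj v).re := by
    simp only [proj, ← Complex.sub_re]
    congr 1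
    ring
  rw [this]
  exact (Complex.abs_re_le_norm _).trans (by simp [hv])

theorem norm_le_of_proj (a v z : ℂ) (hv : ‖v‖ = 1) :
    ‖z‖ ≤ ‖a‖ + |proj a v z| + ‖z - (a + (proj a v z : ℂ) * v)‖ := by
  calc ‖z‖ = ‖a + (proj a v z : ℂ) * v + (z - (a + (proj a v z : ℂ) * v))‖ := by ring_nf
    _ ≤ _ := by
      refine (norm_add_le _ _).trans (add_le_add ((norm_add_le _ _).trans ?_) le_rfl)
      simp [hv]

theorem finite_ball (B : ℝ) : {z : GaussianInt | ‖(z : ℂ)‖ ≤ B}.Finite := by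
  refine ((Set.finite_Icc (-⌈B⌉) ⌈B⌉).prod (Set.finite_Icc (-⌈B⌉) ⌈B⌉)
    |>.image fun p : ℤ × ℤ => (⟨p.1, p.2⟩ : GaussianInt)).subset ?_
  intro z hz
  have h1 : |z.re| ≤ ⌈B⌉ := by
    have := ((Complex.abs_re_le_norm (z : ℂ)).trans hz).trans (Int.le_ceil B)
    rw [← GaussianInt.intCast_re] at this
    exact_mod_cast this
  have h2 : |z.im| ≤ ⌈B⌉ := by
    have := ((Complex.abs_im_le_norm (z : ℂ)).trans hz).trans (Int.le_ceil B)
    rw [← GaussianInt.intCast_im] at this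
    exact_mod_cast this
  rw [abs_le] at h1 h2
  exact ⟨(z.re, z.im), ⟨⟨h1.1, h1.2⟩, ⟨h2.1, h2.2⟩⟩, rfl⟩

theorem strip (D w : ℝ) : ∃ T : ℝ, ∀ (a u : ℂ) (f : ℕ → GaussianInt) (n : ℕ),
    (∀ k ≤ n, Prime (f k) ∧ ∃ s : ℝ, ‖(f k : ℂ) - (a + (s : ℂ) * u)‖ ≤ w) →
    (∀ k < n, ‖(f (k + 1) : ℂ) - (f k : ℂ)‖ ≤ D) →
    ‖(f n : ℂ) - (f 0 : ℂ)‖ ≤ T := by
  obtain ⟨T0, hT0⟩ := Vale.Agent.P015.segment_moat (D + w)
  refine ⟨max T0 0 + 2 * w, fun a u f n hf hstep => ?_⟩
  obtain ⟨v, hv, hline⟩ := exists_unit u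
  set g : ℕ → ℝ := fun k => proj a v (f k : ℂ) with hg
  have hclose : ∀ k ≤ n, ‖(f k : ℂ) - (a + (g k : ℂ) * v)‖ ≤ w := by
    intro k hk
    obtain ⟨-, s, hs⟩ := hf k hk
    obtain ⟨r, hr⟩ := hline s
    rw [hr] at hs
    exact (proj_close a v _ hv r).trans hs
  have hw : 0 ≤ w := (norm_nonneg _).trans (hclose 0 (Nat.zero_le n))
  rcases Nat.eq_zero_or_pos n with rfl | hn
  · simp
    positivity
  have hD : 0 ≤ D := (norm_nonneg _).trans (hstep 0 hn)
  by_contra hcon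
  push Not at hcon
  have hsum : ‖(f n : ℂ) - (f 0 : ℂ)‖ ≤ w + |g n - g 0| + w := by
    calc ‖(f n : ℂ) - (f 0 : ℂ)‖
        = ‖((f n : ℂ) - (a + (g n : ℂ) * v)) + ((g n - g 0 : ℝ) : ℂ) * v
            + (-((f 0 : ℂ) - (a + (g 0 : ℂ) * v)))‖ := by push_cast; ring_nf
      _ ≤ _ := by
        refine (norm_add_le _ _).trans (add_le_add ((norm_add_le _ _).trans ?_) ?_)
        · refine add_le_add (hclose n le_rfl) ?_
          rw [norm_mul, hv, Complex.norm_real, Real.norm_eq_abs, mul_one]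
        · rw [norm_neg]
          exact hclose 0 (Nat.zero_le n)
  have hlen : T0 ≤ ‖(a + (g n : ℂ) * v) - (a + (g 0 : ℂ) * v)‖ := by
    rw [show (a + (g n : ℂ) * v) - (a + (g 0 : ℂ) * v) = ((g n - g 0 : ℝ) : ℂ) * v by
      push_cast; ring, norm_mul, hv, Complex.norm_real, Real.norm_eq_abs, mul_one]
    linarith [le_max_left T0 0]
  obtain ⟨c, hc, hfree⟩ := hT0 _ _ hlen
  rw [segment_eq_image'] at hc
  obtain ⟨θ, hθ, hcθ⟩ := hc
  set x : ℝ := g 0 + θ * (g n - g 0) with hx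
  have hxmem : x ∈ Set.uIcc (g 0) (g n) := by
    rw [← segment_eq_uIcc, segment_eq_image']
    exact ⟨θ, hθ, by simp [hx]⟩
  have hcx : c = a + (x : ℂ) * v := by
    rw [← hcθ, hx]
    simp only [Complex.real_smul]
    push_cast
    ring
  obtain ⟨k, hk, hkx⟩ := crossing g D x n hxmem hD
    (fun k hk => (proj_step a v _ _ hv).trans (hstep k hk))
  have := hfree (f k) (hf k hk).1
  have hle : ‖(f k : ℂ) - c‖ ≤ w + D := by
    calc ‖(f k : ℂ) - c‖
        = ‖((f k : ℂ) - (a + (g k : ℂ) * v)) + ((g k - x : ℝ) : ℂ) * v‖ := by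
          rw [hcx]; push_cast; ring_nf
      _ ≤ _ := by
        refine (norm_add_le _ _).trans (add_le_add (hclose k hk) ?_)
        rw [norm_mul, hv, Complex.norm_real, Real.norm_eq_abs, mul_one]
        exact hkx
  linarith

theorem widening : ∃ φ : ℝ → ℝ, Tendsto φ atTop atTop ∧
    ∀ (D : ℝ) (a u : ℂ) (f : ℕ → GaussianInt), Function.Injective f → (∀ k, Prime (f k)) →
      (∀ k, ‖(f (k + 1) : ℂ) - (f k : ℂ)‖ ≤ D) →
      ∀ N, ∃ k ≥ N, ∀ s : ℝ, φ ‖(f k : ℂ)‖ < ‖(f k : ℂ) - (a + (s : ℂ) * u)‖ := by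
  classical
  choose T hT using fun m : ℕ => Vale.Agent.P015.segment_moat (2 * m)
  set Y : ℕ → ℝ := fun m => 8 * (∑ j ∈ Finset.range (m + 1), (|T j| + 1)) with hY
  have hY8 : ∀ m : ℕ, 8 * ((m : ℝ) + 1) ≤ Y m := by
    intro m
    simp only [hY, Finset.sum_add_distrib, Finset.sum_const, Finset.card_range, nsmul_eq_mul,
      mul_one]
    have : 0 ≤ ∑ j ∈ Finset.range (m + 1), |T j| := Finset.sum_nonneg fun _ _ => abs_nonneg _
    push_cast
    linarith
  have hYT : ∀ m, T m ≤ Y m / 8 := by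
    intro m
    have h := Finset.single_le_sum (f := fun j => |T j| + 1) (fun j _ => by positivity)
      (Finset.self_mem_range_succ m)
    simp only [hY] at *
    linarith [le_abs_self (T m)]
  have hYmono : Monotone Y := by
    intro i j hij
    simp only [hY]
    gcongr
  have hex : ∀ r : ℝ, ∃ m, r ≤ Y m := by
    intro r
    obtain ⟨m, hm⟩ := exists_nat_ge r
    exact ⟨m, hm.trans (le_trans (by linarith [(Nat.cast_nonneg m : (0:ℝ) ≤ m)]) (hY8 m))⟩
  set φ : ℝ → ℝ := fun r => (Nat.find (hex r) : ℝ) with hφ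
  have hφle : ∀ r m, r ≤ Y m → φ r ≤ m := fun r m h => by
    simp only [hφ]; exact_mod_cast Nat.find_min' (hex r) h
  have hφ8 : ∀ r, 0 ≤ r → φ r ≤ r / 8 + 1 := by
    intro r hr
    simp only [hφ]
    rcases Nat.eq_zero_or_pos (Nat.find (hex r)) with h | h
    · rw [h]; simp; linarith
    · obtain ⟨j, hj⟩ := Nat.exists_eq_succ_of_ne_zero h.ne'
      have := not_le.1 (Nat.find_min (hex r) (show j < _ by omega))
      rw [hj]
      push_cast
      linarith [hY8 j]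
  refine ⟨φ, ?_, ?_⟩
  · rw [tendsto_atTop_atTop]
    intro b
    obtain ⟨m, hm⟩ := exists_nat_ge b
    refine ⟨Y m + 1, fun r hr => hm.trans ?_⟩
    simp only [hφ]
    have : m ≤ Nat.find (hex r) := by
      by_contra h
      have := (Nat.find_spec (hex r)).trans (hYmono (le_of_lt (not_le.1 h)))
      linarith
    exact_mod_cast this
  · intro D a u f hinj hp hstep N
    by_contra hcon
    push Not at hcon
    obtain ⟨v, hv, hline⟩ := exists_unit u
    set g : ℕ → ℝ := fun k => proj a v (f (k + N) : ℂ) with hg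
    have hclose : ∀ k, ‖(f (k + N) : ℂ) - (a + (g k : ℂ) * v)‖ ≤ φ ‖(f (k + N) : ℂ)‖ := by
      intro k
      obtain ⟨s, hs⟩ := hcon (k + N) (Nat.le_add_left N k)
      obtain ⟨r, hr⟩ := hline s
      rw [hr] at hs
      exact (proj_close a v _ hv r).trans hs
    have hsize : ∀ k, ‖(f (k + N) : ℂ)‖ ≤
        ‖a‖ + |g k| + (‖(f (k + N) : ℂ)‖ / 8 + 1) := by
      intro k
      have h1 := norm_le_of_proj a v (f (k + N) : ℂ) hv
      have h2 := hclose k
      have h3 := hφ8 _ (norm_nonneg (f (k + N) : ℂ))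
      simp only [hg] at *
      linarith
    have hD : 0 ≤ D := (norm_nonneg _).trans (hstep 0)
    obtain ⟨m, hm⟩ := exists_nat_ge (‖a‖ + |g 0| + D + 1)
    have hmD : D ≤ m := by linarith [norm_nonneg a, abs_nonneg (g 0)]
    have hYm : 8 * (‖a‖ + |g 0| + D + 1) ≤ Y m := by linarith [hY8 m]
    obtain ⟨k, hk⟩ : ∃ k, Y m < ‖(f (k + N) : ℂ)‖ := by
      by_contra h
      push Not at h
      have hi : Function.Injective fun k => f (k + N) := fun i j hij => by
        simpa using hinj hij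
      exact (Set.infinite_range_of_injective hi)
        ((finite_ball (Y m)).subset (by rintro _ ⟨k, rfl⟩; exact h k))
    have hgk : Y m / 4 ≤ |g k| := by
      linarith [hsize k, norm_nonneg a, abs_nonneg (g 0)]
    obtain ⟨σ, hσ, hσk⟩ : ∃ σ : ℝ, |σ| = 1 ∧ σ * g k = |g k| := by
      rcases le_total 0 (g k) with h | h
      · exact ⟨1, by simp, by simp [abs_of_nonneg h]⟩
      · exact ⟨-1, by simp, by simp [abs_of_nonpos h]⟩
    have hYpos : 0 ≤ Y m := by linarith [hY8 m, (Nat.cast_nonneg m : (0:ℝ) ≤ m)]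
    have hlen : T m ≤ ‖(a + ((σ * (Y m / 4) : ℝ) : ℂ) * v) -
        (a + ((σ * (Y m / 8) : ℝ) : ℂ) * v)‖ := by
      rw [show (a + ((σ * (Y m / 4) : ℝ) : ℂ) * v) - (a + ((σ * (Y m / 8) : ℝ) : ℂ) * v)
          = ((σ * (Y m / 8) : ℝ) : ℂ) * v by push_cast; ring,
        norm_mul, hv, Complex.norm_real, Real.norm_eq_abs, mul_one, abs_mul, hσ, one_mul,
        abs_of_nonneg (by linarith)]
      exact hYT m
    obtain ⟨c, hc, hfree⟩ := hT m _ _ hlen
    rw [segment_eq_image'] at hc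
    obtain ⟨θ, hθ, hcθ⟩ := hc
    set x : ℝ := Y m / 8 + θ * (Y m / 8) with hx
    have hx1 : Y m / 8 ≤ x := by
      have : 0 ≤ θ * (Y m / 8) := mul_nonneg hθ.1 (by linarith)
      linarith
    have hx2 : x ≤ Y m / 4 := by
      have : θ * (Y m / 8) ≤ 1 * (Y m / 8) := by gcongr; exact hθ.2
      linarith
    have hstep' : ∀ j, |σ * g (j + 1) - σ * g j| ≤ D := by
      intro j
      rw [← mul_sub, abs_mul, hσ, one_mul]
      refine (proj_step a v _ _ hv).trans ?_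
      have := hstep (j + N)
      rwa [show j + N + 1 = j + 1 + N by omega] at this
    have hg0 : σ * g 0 ≤ |g 0| := by
      refine (le_abs_self _).trans ?_
      rw [abs_mul, hσ, one_mul]
    obtain ⟨j, -, hjx⟩ := crossing_up (fun j => σ * g j) D x k
      (by linarith [norm_nonneg a]) (by rw [hσk]; linarith) hD (fun j _ => hstep' j)
    have hcx : c = a + ((σ * x : ℝ) : ℂ) * v := by
      rw [← hcθ, hx]
      simp only [Complex.real_smul]
      push_cast
      ring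
    have hgabs : |g j| = |σ * g j| := by rw [abs_mul, hσ, one_mul]
    have hgj : |g j| ≤ Y m / 4 + D := by
      rw [hgabs]
      rw [abs_le] at hjx ⊢
      constructor <;> linarith
    have hnormj : ‖(f (j + N) : ℂ)‖ ≤ Y m := by
      linarith [hsize j, abs_nonneg (g 0), norm_nonneg a]
    have hφj : φ ‖(f (j + N) : ℂ)‖ ≤ m := hφle _ _ hnormj
    have hσ2 : σ * σ = 1 := by rw [← abs_mul_abs_self σ, hσ, mul_one]
    have hgap : |g j - σ * x| ≤ D := by
      have : g j - σ * x = σ * (σ * g j - x) := by linear_combination (-(g j)) * hσ2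
      rw [this, abs_mul, hσ, one_mul]
      exact hjx
    have hle : ‖(f (j + N) : ℂ) - c‖ ≤ m + D := by
      calc ‖(f (j + N) : ℂ) - c‖
          = ‖((f (j + N) : ℂ) - (a + (g j : ℂ) * v)) + ((g j - σ * x : ℝ) : ℂ) * v‖ := by
            rw [hcx]; push_cast; ring_nf
        _ ≤ _ := by
          refine (norm_add_le _ _).trans (add_le_add ((hclose j).trans hφj) ?_)
          rw [norm_mul, hv, Complex.norm_real, Real.norm_eq_abs, mul_one]
          exact hgap
    have := hfree (f (j + N)) (hp _)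
    linarith

theorem result :
    (∀ R : ℝ, ∃ T : ℝ, ∀ a b : ℂ, T ≤ ‖b - a‖ →
      ∃ c ∈ segment ℝ a b, ∀ p : GaussianInt, Prime p → R < ‖(p : ℂ) - c‖) ∧
    (∀ D w : ℝ, ∃ T : ℝ, ∀ (a u : ℂ) (f : ℕ → GaussianInt) (n : ℕ),
      (∀ k ≤ n, Prime (f k) ∧ ∃ s : ℝ, ‖(f k : ℂ) - (a + (s : ℂ) * u)‖ ≤ w) →
      (∀ k < n, ‖(f (k + 1) : ℂ) - (f k : ℂ)‖ ≤ D) →
      ‖(f n : ℂ) - (f 0 : ℂ)‖ ≤ T) ∧
    (∃ φ : ℝ → ℝ, Tendsto φ atTop atTop ∧
      ∀ (D : ℝ) (a u : ℂ) (f : ℕ → GaussianInt), Function.Injective f → (∀ k, Prime (f k)) →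
        (∀ k, ‖(f (k + 1) : ℂ) - (f k : ℂ)‖ ≤ D) →
        ∀ N, ∃ k ≥ N, ∀ s : ℝ, φ ‖(f k : ℂ)‖ < ‖(f k : ℂ) - (a + (s : ℂ) * u)‖) :=
  ⟨Vale.Agent.P015.segment_moat, strip, widening⟩

end Vale.Agent.Results.P015.StraightMoats
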